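import Vale.Agent.P281.H575.MFS.Fib
import Vale.Agent.P281.H167.KG.Flat
import Vale.Agent.P281.H342.MFS.SecMix
import Vale.Agent.P281.H368.KG.Null
import Vale.Agent.P281.H413.KD.FC
import Vale.Agent.P281.H716.KL.X1

/-! P281, theorem U, row U-F: quotients of sections of `m₁ (K + Δ)` are constant along the kernel of
`θ₀ + θ₁`, if `K + Δ₀ ≡ θ₀ + N₀` and `K + Δ₀ + t (Δ - Δ₀) ≡ θ₁ + N₁`. -/

open scoped Manifold ContDiff Topology ComplexOrder Matrix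
open Set Filter Vale.Agent.P281 Vale.Agent.P281.MF Vale.Agent.P272.K Vale.Agent.P299
open Vale.Agent.P285.TM Vale.Agent.P285.H591.TM
open Vale.Agent.P281.H949.SA Vale.Agent.P281.H716 Vale.Agent.P281.H716.IsSys
open Vale.Agent.P272.K.AMP (hess)
open Vale.Agent.P272.K.INT (IsClosedForm)
open Vale.Agent.P281.H342.KD Vale.Agent.P281.H342.KG
open Vale.Agent.P281.H713.SA
open Vale.Agent.P281.H368.MFS

set_option linter.all false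

noncomputable section

namespace Vale.Agent.P281.H575.U

open Vale.Agent.P281.H167.GM (mixX addF isClosed_addF psd_real_smul)
open Vale.Agent.P281.H575.MFS

section

variable {n : ℕ} {X : Type} [TopologicalSpace X] [ChartedSpace (Cm n) X]
  [IsManifold 𝓘(ℂ, Cm n) ω X]

theorem mix_nonneg_psd [T2Space X] [CompactSpace X] [Nonempty X] {χ A B : D.FormM n X}
    (hχ : IsKahler χ) (hA : IsClosedForm A) (hA0 : ∀ e x, At e x → (A e (e x)).PosSemidef)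
    (hB : IsClosedForm B) (hB0 : ∀ e x, At e x → (B e (e x)).PosSemidef) : 0 ≤ mixX A B := by
  refine H776.KL.mix_nonneg hχ hB 1 (ρ := fun _ => (1 : ℝ))
    (Vale.Agent.P272.K.AMP.smoothFn_const 1) (fun _ => zero_le_one) ?_ 0 ?_ hA hA0
  · intro e _
    have h1 : {z : Cm n | z ∈ e.target ∧ (1 : ℝ) = 0} = ∅ := by
      ext z
      simp
    rw [h1]
    exact MeasureTheory.measure_empty
  · intro δ hδ e x hx
    have h1 := Vale.Agent.P272.K.AMP.hess_const' (n := n) (X := X) (Real.log (1 + δ)) e (e x)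
    rw [h1, smul_zero, add_zero, zero_mul, Complex.ofReal_zero, zero_smul, add_zero]
    exact hB0 e x hx

end

section core

variable {d : ℕ} {F : Type} [TopologicalSpace F] [T2Space F] [CompactSpace F] [ConnectedSpace F]
  [ChartedSpace (Cm d) F] [IsManifold 𝓘(ℂ, Cm d) ω F] {κ : Type}
  {eqn : κ → F → (F → ℂ) → Prop} {T : Finset κ}

/-- the quotients of sections of `m₁ (K + Δ)` -/
theorem dV_zero (hgr : GrowthPartM) {χ : D.FormM d F} (hχ : IsKahler χ) (h : IsSys d eqn T)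
    {Δ Δ₀ : κ → ℝ} (hTΔ : ∀ D, Δ D ≠ 0 → D ∈ T) (hTΔ₀ : ∀ D, Δ₀ D ≠ 0 → D ∈ T) {t : ℝ}
    (ht : 0 < t) {m m' : ℕ} (hm : 0 < m) (hm' : 0 < m') {k k' : κ → ℕ}
    (hk : ∀ D, (k D : ℝ) = m * Δ₀ D) (hk' : ∀ D, (k' D : ℝ) = m' * (Δ₀ D + t * (Δ D - Δ₀ D)))
    {V₀ V₁ : F → ℝ} {β θ₀ θ₁ : D.FormM d F} (hβ : IsSemiPos β) (hθ₀ : IsSemiPos θ₀)
    (hθ₁ : IsSemiPos θ₁) (hθ : IsSemiPos (θ₀ + θ₁)) {ν : ℕ}
    (hν : ∀ e x, At e x → ((θ₀ + θ₁) e (e x)).rank ≤ ν)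
    (hV₀ : ∀ x, ∃ (r : ℕ) (g : Fin r → F → ℂ) (a : Fin r → ℕ), VolLoc d m eqn k V₀ 0 θ₀ x g a ∧
      ∀ᶠ z in 𝓝 x, ∀ i, g i z = 0 → ConAt d (g i) β (θ₀ + θ₁) z ∨ SmallAt d ν (g i) (θ₀ + θ₁) z)
    (hV₁ : ∀ x, ∃ (r : ℕ) (g : Fin r → F → ℂ) (a : Fin r → ℕ), VolLoc d m' eqn k' V₁ 0 θ₁ x g a ∧
      ∀ᶠ z in 𝓝 x, ∀ i, g i z = 0 → ConAt d (g i) β (θ₀ + θ₁) z ∨ SmallAt d ν (g i) (θ₀ + θ₁) z)
    {m₁ : ℕ} (hm₁ : 0 < m₁) {k₁ : κ → ℕ} (hk₁ : ∀ D, (k₁ D : ℝ) = m₁ * Δ D) {s₀ s₁ : F → ℂ}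
    (hs₀ : J.IsSection (Cm d) eqn m₁ k₁ s₀) (hs₁ : J.IsSection (Cm d) eqn m₁ k₁ s₁)
    {x : F} (hxo : x ∈ off eqn T) (h0 : s₀ x ≠ 0)
    (hP : (β (chartAt (Cm d) x) (chartAt (Cm d) x x)).PosDef)
    (hrk : ((θ₀ + θ₁) (chartAt (Cm d) x) (chartAt (Cm d) x x)).rank = ν) {v : Cm d}
    (hv : ∀ j, ∑ i, (De (chartAt (Cm d) x) x v) i *
      (θ₀ + θ₁) (chartAt (Cm d) x) (chartAt (Cm d) x x) i j = 0) :
    dV (Cm d) (fun w => s₁ w / s₀ w) x v = 0 := by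
  classical
  haveI : Nonempty F := ⟨x⟩
  have hm0 : (m : ℝ) ≠ 0 := by exact_mod_cast hm.ne'
  have hm'0 : (m' : ℝ) ≠ 0 := by exact_mod_cast hm'.ne'
  have hsupp : ∀ {m : ℕ} {k : κ → ℕ} {Δ : κ → ℝ}, (∀ D, Δ D ≠ 0 → D ∈ T) →
      (∀ D, (k D : ℝ) = m * Δ D) → ∀ D, k D ≠ 0 → D ∈ T := by
    intro m k Δ hTΔ hk D hD
    refine hTΔ D fun h0 => hD ?_
    have h1 := hk D
    rw [h0, mul_zero] at h1
    exact_mod_cast h1
  have hTΔ₁ : ∀ D, Δ₀ D + t * (Δ D - Δ₀ D) ≠ 0 → D ∈ T := by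
    intro D hD
    by_contra hcon
    have h1 : Δ D = 0 := by
      by_contra h; exact hcon (hTΔ D h)
    have h2 : Δ₀ D = 0 := by
      by_contra h; exact hcon (hTΔ₀ D h)
    exact hD (by rw [h1, h2]; ring)
  obtain ⟨M, Dv, hinj, hDvT⟩ := H167.KG.exists_enum T
  have hDv : ∀ i, Dv i ∈ T := fun i => (hDvT _).2 ⟨i, rfl⟩
  have hprod : ∀ f : κ → ℂ, ∏ i, f (Dv i) = ∏ D ∈ T, f D := by
    intro f
    have h1 : T = Finset.univ.image Dv := by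
      ext D
      rw [hDvT D, Finset.mem_image]
      exact ⟨fun ⟨i, hi⟩ => ⟨i, Finset.mem_univ i, hi⟩, fun ⟨i, _, hi⟩ => ⟨i, hi⟩⟩
    rw [h1, Finset.prod_image fun i _ j _ hij => hinj hij]
  choose ψ hψ hle using fun i => H342.KD.exists_wt_le h (hDv i)
  have hφ := AMP.Main.isCanonical_logdet hχ.toIsHermitian
  set φ : Chart d F → Cm d → ℝ := fun e z => Real.log (χ e z).det.re with hφd
  set R : Fin M → D.FormM d F := fun i => cv (OD h (Dv i) (hDv i)) (ψ i) with hRd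
  have hcl : ∀ dl : Fin M → ℝ, IsClosedForm (H713.KD.clsK φ dl R) := fun dl =>
    closed_cls (fun i => isClosedForm_cv (hψ i)) hφ
  have hβc := hβ.isClosedForm
  have hθc := hθ.isClosedForm
  have hA : ∀ s : ℝ, IsClosedForm (addF β s (θ₀ + θ₁)) := fun s => isClosed_addF hβc hθc s
  have hA0 : ∀ s : ℝ, 0 ≤ s → ∀ e x, At e x → ((addF β s (θ₀ + θ₁)) e (e x)).PosSemidef :=
    fun s hs e x hx => (hβ.posSemidef e x hx).add (psd_real_smul (hθ.posSemidef e x hx) hs)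
  -- one volume form
  have key : ∀ (Δ : κ → ℝ) (m : ℕ) (_ : 0 < m) (k : κ → ℕ) (_ : ∀ D, Δ D ≠ 0 → D ∈ T)
      (_ : ∀ D, (k D : ℝ) = m * Δ D) (V : F → ℝ) (θ : D.FormM d F) (_ : IsSemiPos θ)
      (_ : ∀ x, ∃ (r : ℕ) (g : Fin r → F → ℂ) (a : Fin r → ℕ), VolLoc d m eqn k V 0 θ x g a ∧
        ∀ᶠ z in 𝓝 x, ∀ i, g i z = 0 →
          ConAt d (g i) β (θ₀ + θ₁) z ∨ SmallAt d ν (g i) (θ₀ + θ₁) z),
      ∃ C : ℝ, ∀ s : ℝ, 1 ≤ s →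
        0 ≤ mixX (addF β s (θ₀ + θ₁)) (H713.KD.clsK φ (fun i => Δ (Dv i)) R) ∧
        mixX (addF β s (θ₀ + θ₁)) (H713.KD.clsK φ (fun i => Δ (Dv i)) R) ≤
          C * s ^ ν / s + mixX (addF β s (θ₀ + θ₁)) θ ∧
        mixX (addF β s (θ₀ + θ₁)) (θ₀ + θ₁) ≤ C * s ^ ν / s := by
    intro Δ m hm k hTΔ hk V θ hθs hV
    set cl : D.FormM d F := H713.KD.clsK φ (fun i => Δ (Dv i)) R with hcld
    set Λ : D.FormM d F := fun e z => cl e z - (θ e z - (0 : D.FormM d F) e z) with hΛdef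
    have hΛ : IsClosedForm Λ := by
      have h1 := (hcl (fun i => Δ (Dv i))).add (hθs.isClosedForm.smul (-1))
      have h2 : (fun (e : Chart d F) z => cl e z + (-1 : ℂ) • θ e z) = Λ := by
        funext e z
        show cl e z + (-1 : ℂ) • θ e z = cl e z - (θ e z - 0)
        rw [neg_one_smul, sub_zero, sub_eq_add_neg]
      rw [← h2]
      exact h1
    set ρ : F → ℝ := H342.MFS.rhoW h Dv ψ φ k m V with hρdef
    have hloc : ∀ x, ∃ (r : ℕ) (g : Fin r → F → ℂ) (a : Fin r → ℕ) (w : F → ℂ),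
        H167.KG.LocAt m Λ ρ x g a (fun (_ : Fin 1) => w) ∧
        ∀ᶠ z in 𝓝 x, ∀ l, g l z = 0 →
          ConAt d (g l) β (θ₀ + θ₁) z ∨ SmallAt d ν (g l) (θ₀ + θ₁) z := by
      intro x
      obtain ⟨r, g, a, hVx, hev⟩ := hV x
      obtain ⟨w, hL⟩ := locAt_vol (dl := fun i => Δ (Dv i)) h hprod hDv hψ hφ (hsupp hTΔ hk)
        (fun l => hk (Dv l)) hVx
      exact ⟨r, g, a, w, hL, hev⟩
    have hex : ∀ x, ∃ (r N : ℕ) (g : Fin r → F → ℂ) (a : Fin r → ℕ) (H : Fin N → F → ℂ),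
        H167.KG.LocAt m Λ ρ x g a H := fun x => by
      obtain ⟨r, g, a, w, hL, -⟩ := hloc x
      exact ⟨r, 1, g, a, _, hL⟩
    obtain ⟨C, -, -, hρs, hρ0, -, -, -, hcurv, -⟩ := H342.KG.formPartG d F χ hχ m hm Λ hΛ ρ hex
    obtain ⟨C₁, hC₁⟩ := hgr d F χ hχ m hm Λ hΛ ρ hρs hρ0 β (θ₀ + θ₁) hβ hθ ν hν hloc
    refine ⟨C₁, fun s hs => ?_⟩
    have hs0 : 0 ≤ s := zero_le_one.trans hs
    have h1 : mixX (addF β s (θ₀ + θ₁)) cl = mixX (addF β s (θ₀ + θ₁)) Λ +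
        mixX (addF β s (θ₀ + θ₁)) θ :=
      mixX_add (hA s) hχ hΛ hθs.isClosedForm fun e x hx => by
        show cl e (e x) = cl e (e x) - (θ e (e x) - 0) + θ e (e x)
        abel
    have h2 : 0 ≤ mixX (addF β s (θ₀ + θ₁)) Λ :=
      H776.KL.mix_nonneg hχ hΛ m hρs hρ0 (H368.KG.nullPart d F m Λ ρ hex) C hcurv (hA s)
        (hA0 s hs0)
    have h3 : 0 ≤ mixX (addF β s (θ₀ + θ₁)) θ :=
      mix_nonneg_psd hχ (hA s) (hA0 s hs0) hθs.isClosedForm hθs.posSemidef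
    have h4 := hC₁ s hs
    refine ⟨by rw [h1]; exact add_nonneg h2 h3, ?_, h4.2⟩
    rw [h1]
    exact add_le_add_left h4.1 _
  obtain ⟨C₀, hC₀⟩ := key Δ₀ m hm k hTΔ₀ hk V₀ θ₀ hθ₀ hV₀
  obtain ⟨C₁, hC₁⟩ := key (fun D => Δ₀ D + t * (Δ D - Δ₀ D)) m' hm' k' hTΔ₁ hk' V₁ θ₁ hθ₁ hV₁
  set Λ : D.FormM d F := H713.KD.clsK φ (fun i => Δ (Dv i)) R with hΛd
  have hΛ : IsClosedForm Λ := hcl _
  set C₂ : ℝ := C₁ + C₁ + |t - 1| * (|C₀| + |C₀|) with hC₂d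
  have hgrow : ∀ s : ℝ, 1 ≤ s → mixX (addF β s (θ₀ + θ₁)) Λ ≤ (t⁻¹ * C₂) * s ^ ν / s := by
    intro s hs
    have hs0 : 0 ≤ s := zero_le_one.trans hs
    have h1 := hC₀ s hs
    have h2 := hC₁ s hs
    have h3 : mixX (addF β s (θ₀ + θ₁)) (θ₀ + θ₁) = mixX (addF β s (θ₀ + θ₁)) θ₀ +
        mixX (addF β s (θ₀ + θ₁)) θ₁ :=
      mixX_add (hA s) hχ hθ₀.isClosedForm hθ₁.isClosedForm fun _ _ _ => rfl
    have h4 : 0 ≤ mixX (addF β s (θ₀ + θ₁)) θ₀ :=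
      mix_nonneg_psd hχ (hA s) (hA0 s hs0) hθ₀.isClosedForm hθ₀.posSemidef
    -- `t Λ + (1 - t) Λ₀ = Λ₁`
    have h5 : mixX (addF β s (θ₀ + θ₁))
        (H713.KD.clsK φ (fun i => Δ₀ (Dv i) + t * (Δ (Dv i) - Δ₀ (Dv i))) R) =
        t * mixX (addF β s (θ₀ + θ₁)) Λ + (1 - t) * mixX (addF β s (θ₀ + θ₁))
          (H713.KD.clsK φ (fun i => Δ₀ (Dv i)) R) := by
      refine H716.KL.mixX_comb (hA s) hΛ (hcl _) fun e x hx => ?_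
      show cHess (φ e) (e x) + ∑ i, ((Δ₀ (Dv i) + t * (Δ (Dv i) - Δ₀ (Dv i)) : ℝ) : ℂ) •
        R i e (e x) = (t : ℂ) • (cHess (φ e) (e x) + ∑ i, ((Δ (Dv i) : ℝ) : ℂ) • R i e (e x)) +
        (((1 - t : ℝ) : ℝ) : ℂ) • (cHess (φ e) (e x) +
          ∑ i, ((Δ₀ (Dv i) : ℝ) : ℂ) • R i e (e x))
      rw [smul_add, smul_add, Finset.smul_sum, Finset.smul_sum]
      have h6 : ∑ i, ((Δ₀ (Dv i) + t * (Δ (Dv i) - Δ₀ (Dv i)) : ℝ) : ℂ) • R i e (e x) =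
          ∑ i, (t : ℂ) • ((Δ (Dv i) : ℝ) : ℂ) • R i e (e x) +
          ∑ i, (((1 - t : ℝ) : ℝ) : ℂ) • ((Δ₀ (Dv i) : ℝ) : ℂ) • R i e (e x) := by
        rw [← Finset.sum_add_distrib]
        refine Finset.sum_congr rfl fun i _ => ?_
        rw [smul_smul, smul_smul, ← add_smul]
        congr 1
        push_cast
        ring
      rw [h6]
      have h7 : cHess (φ e) (e x) = (t : ℂ) • cHess (φ e) (e x) +
          (((1 - t : ℝ) : ℝ) : ℂ) • cHess (φ e) (e x) := by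
        rw [← add_smul]
        push_cast
        rw [add_sub_cancel, one_smul]
      nth_rewrite 1 [h7]
      abel
    have h4' : 0 ≤ mixX (addF β s (θ₀ + θ₁)) θ₁ :=
      mix_nonneg_psd hχ (hA s) (hA0 s hs0) hθ₁.isClosedForm hθ₁.posSemidef
    have hsp : 0 ≤ s ^ ν / s := by positivity
    have h8 : (t - 1) * mixX (addF β s (θ₀ + θ₁)) (H713.KD.clsK φ (fun i => Δ₀ (Dv i)) R) ≤
        |t - 1| * ((|C₀| + |C₀|) * (s ^ ν / s)) := by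
      refine mul_le_mul (le_abs_self _) ?_ h1.1 (abs_nonneg _)
      have h10 := h1.2.1
      have h11 := h1.2.2
      have h12 : C₀ * s ^ ν / s ≤ |C₀| * (s ^ ν / s) := by
        rw [mul_div_assoc]
        exact mul_le_mul_of_nonneg_right (le_abs_self _) hsp
      have h13 : (|C₀| + |C₀|) * (s ^ ν / s) = |C₀| * (s ^ ν / s) + |C₀| * (s ^ ν / s) := by ring
      rw [h13]
      linarith
    have h9 : t * mixX (addF β s (θ₀ + θ₁)) Λ ≤ C₂ * s ^ ν / s := by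
      have h10 := h2.2.1
      have h11 := h2.2.2
      have h12 : C₂ * s ^ ν / s = C₁ * s ^ ν / s + C₁ * s ^ ν / s +
        |t - 1| * ((|C₀| + |C₀|) * (s ^ ν / s)) := by
        rw [hC₂d]
        ring
      rw [h12]
      linarith
    have h13 : (t⁻¹ * C₂) * s ^ ν / s = t⁻¹ * (C₂ * s ^ ν / s) := by ring
    rw [h13, ← inv_mul_cancel_left₀ ht.ne' (mixX (addF β s (θ₀ + θ₁)) Λ)]
    exact mul_le_mul_of_nonneg_left h9 (inv_nonneg.2 ht.le)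
  -- the sections
  have hk₁T : ∀ D, k₁ D ≠ 0 → D ∈ T := hsupp hTΔ hk₁
  have he : At (chartAt (Cm d) x) x := ⟨chart_mem_atlas _ _, mem_chart_source _ _⟩
  set e : Chart d F := chartAt (Cm d) x with hed
  -- we may suppose `s₁ x ≠ 0`
  obtain ⟨c, hc⟩ : ∃ c : ℂ, s₁ x + c * s₀ x ≠ 0 := by
    by_cases h1 : s₁ x = 0
    · exact ⟨1, by rw [h1, zero_add, one_mul]; exact h0⟩
    · exact ⟨0, by rw [zero_mul, add_zero]; exact h1⟩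
  have hs₂ := H167.KG.add_sec h hk₁T hs₁ hs₀ c
  set s₂ : F → ℂ := fun z => s₁ z + c * s₀ z with hs₂d
  have hs₂0 : s₂ x ≠ 0 := hc
  have hq : HolV (Cm d) (fun w => s₁ w / s₀ w) x := h.holV_ratio hk₁T hs₀ hs₁ hxo h0
  have hq₂ : HolV (Cm d) (fun w => s₂ w / s₀ w) x := h.holV_ratio hk₁T hs₀ hs₂ hxo h0
  have hev0 : ∀ᶠ w in 𝓝 x, s₀ w ≠ 0 := h.ev_ne hk₁T hs₀ hxo h0
  have hev2 : ∀ᶠ w in 𝓝 x, s₂ w ≠ 0 := h.ev_ne hk₁T hs₂ hxo hs₂0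
  obtain ⟨hnull, C, -, hcurv⟩ := H342.MFS.nrm_curv (dl := fun i => Δ (Dv i)) h hprod hDv hψ hφ hk₁T
    (fun i => hk₁ (Dv i)) hm₁ hs₀ ⟨x, hxo, h0⟩ hχ
  have hmain := H413.FC.corePartF d F χ hχ Λ hΛ m₁ hm₁ (nrm h Dv ψ φ k₁ m₁ s₀)
    (nrm_smooth h hprod hDv hψ hφ hk₁T hs₀) (fun x => nrm_nonneg h x) hnull C hcurv (θ₀ + θ₁) β
    hθc hβc hθ.posSemidef hβ.posSemidef ν (t⁻¹ * C₂)
    ((eventually_ge_atTop 1).frequently.mono fun s hs => hgrow s hs) m₁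
    (nrm h Dv ψ φ k₁ m₁ s₀) (nrm h Dv ψ φ k₁ m₁ s₂)
    (nrm_smooth h hprod hDv hψ hφ hk₁T hs₀) (nrm_smooth h hprod hDv hψ hφ hk₁T hs₂)
    (nrm_loc h hprod hDv hψ hφ hk₁T (fun i => hk₁ (Dv i)) hs₀ hs₂) e x he
    ((nrm_pos_iff h hk₁T hs₀ hxo).2 h0) ((nrm_pos_iff h hk₁T hs₂ hxo).2 hs₂0)
    ((nrm_pos_iff h hk₁T hs₀ hxo).2 h0) hP hrk (De e x v) hv
  have hu : ∀ᶠ y in 𝓝 x, (fun y => Real.log (nrm h Dv ψ φ k₁ m₁ s₂ y) -
      Real.log (nrm h Dv ψ φ k₁ m₁ s₀ y)) y = 1 * Real.log (‖s₂ y / s₀ y‖ ^ 2) := by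
    filter_upwards [hev0, hev2, h.isOpen_off.mem_nhds hxo] with y h1 h2 h3
    show Real.log (nrm h Dv ψ φ k₁ m₁ s₂ y) - Real.log (nrm h Dv ψ φ k₁ m₁ s₀ y) = _
    rw [nrm_log h hk₁T hs₀ hs₂ h3 h1 h2, norm_div, div_pow,
      Real.log_div (pow_ne_zero 2 (norm_ne_zero_iff.2 h2))
        (pow_ne_zero 2 (norm_ne_zero_iff.2 h1)), one_mul]
  rw [H167.KG.xi_log he hq₂ (div_ne_zero hs₂0 h0) hu, Complex.ofReal_one, one_mul,
    div_eq_zero_iff, or_iff_left (div_ne_zero hs₂0 h0)] at hmain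
  have h4 : dV (Cm d) (fun w => s₁ w / s₀ w) x = dV (Cm d) (fun w => s₂ w / s₀ w) x := by
    have h5 : (fun w => s₂ w / s₀ w) =ᶠ[𝓝 x] fun w => s₁ w / s₀ w + c := by
      filter_upwards [hev0] with w hw
      simp only [hs₂d]
      field_simp
    rw [dV_congr h5]
    have h6 : dV (Cm d) (fun w => s₁ w / s₀ w + c) x = dV (Cm d) (fun w => s₁ w / s₀ w) x := by
      rw [dV_eq_fderiv he (HolV.add hq (HolV.const c x)), dV_eq_fderiv he hq]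
      congr 1
      exact fderiv_add_const c
    rw [h6]
  rw [h4, dV_eq_fderiv he hq₂]
  exact hmain

end core

end Vale.Agent.P281.H575.U
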