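import Vale.Agent.P281.H575.U.Fib1
import Vale.Agent.P281.H716.DenseV
import Vale.Agent.P281.H716.Lin

/-! P281, theorem U: `κ(F, K_F + Δ|_F) ≤ ν_F`, the maximal rank of `θ` on the fibre. -/

open scoped Manifold ContDiff Topology ComplexOrder Matrix
open Set Filter Vale.Agent.P281 Vale.Agent.P281.MF Vale.Agent.P272.K Vale.Agent.P299
open Vale.Agent.P281.H949.SA Vale.Agent.P281.H716 Vale.Agent.P281.H716.IsSys
open Vale.Agent.P281.H713 Vale.Agent.P281.H713.SA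
open Vale.Agent.P281.H776.KD (mem_iffE)
open Vale.Agent.P281.H368.MFS

set_option linter.all false

noncomputable section

namespace Vale.Agent.P281.H575.U

open Vale.Agent.P281.H575.MFS

section abs

variable {d : ℕ} {F : Type} [TopologicalSpace F] [ConnectedSpace F]
  [ChartedSpace (Cm d) F] [IsManifold 𝓘(ℂ, Cm d) ω F] {κ : Type}
  {eqn : κ → F → (F → ℂ) → Prop} {T : Finset κ}

/-- **the dimension count** -/
theorem kod_le_of_flat (h : IsSys d eqn T) {Δ : κ → ℝ} (hTΔ : ∀ D, Δ D ≠ 0 → D ∈ T)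
    (hoff : ∀ x : F, (∀ D ∈ T, ∃ g, eqn D x g ∧ g x ≠ 0) → x ∈ off eqn T)
    (hTΔ' : ∀ D ∈ T, Δ D ≠ 0)
    {τ : D.FormM d F} {ν : ℕ} {RF : Set F} (hRo : IsOpen RF) (hRne : RF.Nonempty)
    (hrk : ∀ x ∈ RF, (τ (chartAt (Cm d) x) (chartAt (Cm d) x x)).rank ≤ ν)
    (hflat : ∀ x ∈ RF, ∀ (m₁ : ℕ) (_ : 0 < m₁) (k₁ : κ → ℕ) (_ : ∀ D, (k₁ D : ℝ) = m₁ * Δ D)
      (s₀ s₁ : F → ℂ), J.IsSection (Cm d) eqn m₁ k₁ s₀ → J.IsSection (Cm d) eqn m₁ k₁ s₁ →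
      s₀ x ≠ 0 → ∀ v : Cm d, InKer (τ (chartAt (Cm d) x) (chartAt (Cm d) x x)) v →
      dV (Cm d) (fun w => s₁ w / s₀ w) x v = 0) :
    J.kod (Cm d) eqn Δ ≤ ((ν : ℕ∞) : WithBot ℕ∞) := by
  classical
  refine iSup₂_le fun a ha => ?_
  obtain ⟨m₁, k₁, s, z, hm₁, hk₁, hs, hz, h0, hsurj⟩ := ha
  have hm₁0 : (m₁ : ℝ) ≠ 0 := by exact_mod_cast hm₁.ne'
  have hk₁T : ∀ D, k₁ D ≠ 0 → D ∈ T := by
    intro D hD
    refine hTΔ D fun h1 => hD ?_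
    have h2 := hk₁ D
    rw [h1, mul_zero] at h2
    exact_mod_cast h2
  have hTk : ∀ D ∈ T, k₁ D ≠ 0 := by
    intro D hD h1
    have h2 := hk₁ D
    rw [h1, Nat.cast_zero] at h2
    exact mul_ne_zero hm₁0 (hTΔ' D hD) h2.symm
  set s' : Fin (a + 1) → F → ℂ := fun b => s b with hs'd
  have hs' : ∀ b, J.IsSection (Cm d) eqn m₁ k₁ (s' b) := fun b => hs b
  have hzoff : z ∈ off eqn T := hoff z fun D hD => hz D (hTk D hD)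
  have hind : Ind d s' z := ⟨h0, JB.linearIndependent_of_surjective hsurj⟩
  obtain ⟨hd, -⟩ := h.dense_ind hk₁T hs' ⟨z, hzoff, hind⟩
  obtain ⟨x, hxR, hxoff, hx0, hxi⟩ := hd.inter_open_nonempty RF hRo hRne
  have h1 := finrank_common hxi
  have h2 := finrank_KH (τ (chartAt (Cm d) x) (chartAt (Cm d) x x))
  have h3 : KH (τ (chartAt (Cm d) x) (chartAt (Cm d) x x)) ≤
      (⨅ b : Fin a, LinearMap.ker ((dV (Cm d) (fun w => s' b.succ w / s' 0 w) x :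
        Cm d →L[ℂ] ℂ) : Cm d →ₗ[ℂ] ℂ) : Submodule ℂ (Cm d)) := by
    intro v hv
    rw [Submodule.mem_iInf]
    intro b
    exact hflat x hxR m₁ hm₁ k₁ hk₁ _ _ (hs' 0) (hs' b.succ) hx0 v (mem_KH.1 hv)
  have h4 := Submodule.finrank_mono h3
  have h5 := hrk x hxR
  have h6 : a ≤ ν := by omega
  exact_mod_cast h6

end abs

theorem kodF_le (hgr : GrowthPartM) {n p d : ℕ} (hnpd : n = p + d) {X Z Y F : Type}
    [TopologicalSpace X] [T2Space X] [CompactSpace X] [ConnectedSpace X]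
    [ChartedSpace (Cm n) X] [IsManifold 𝓘(ℂ, Cm n) ω X]
    [TopologicalSpace Z] [ChartedSpace (Cm n) Z] [IsManifold 𝓘(ℂ, Cm n) ω Z]
    [TopologicalSpace Y] [T2Space Y] [ConnectedSpace Y]
    [ChartedSpace (Cm p) Y] [IsManifold 𝓘(ℂ, Cm p) ω Y]
    [TopologicalSpace F] [T2Space F] [CompactSpace F] [ConnectedSpace F]
    [ChartedSpace (Cm d) F] [IsManifold 𝓘(ℂ, Cm d) ω F]
    {χ : D.FormM n X} (hχ : IsKahler χ) {Δ Δ₀ : Set X → ℝ} (hΔ : J.IsSNC (Cm n) Δ)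
    (hΔ₀ : ∀ D, Δ₀ D ≠ 0 → Δ D ≠ 0) {t : ℝ} (ht : 0 < t)
    {m m' : ℕ} (hm : 0 < m) (hm' : 0 < m') {k k' : Set X → ℕ}
    (hk : ∀ D, (k D : ℝ) = m * Δ₀ D) (hk' : ∀ D, (k' D : ℝ) = m' * (Δ₀ D + t * (Δ D - Δ₀ D)))
    {θ₀ θ₁ : D.FormM n X} (hθ₀ : IsSemiPos θ₀) (hθ₁ : IsSemiPos θ₁) {W₀ W₁ : X → ℝ}
    {j : Z → X} (hj : J.IsBigOpen (Cm n) j) {f : Z → Y} (hf : ContMDiff 𝓘(ℂ, Cm n) 𝓘(ℂ, Cm p) ω f)
    {i : F → Z} (hi : IsSmoothFibre (Cm n) (Cm p) (Cm d) f i)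
    (hne : ∀ D, Δ D ≠ 0 → ∃ t, j (i t) ∉ D) {β : D.FormM d F} (hβ : IsSemiPos β)
    (hd : Dense {t | (β (chartAt (Cm d) t) (chartAt (Cm d) t t)).PosDef}) {ν : ℕ}
    (hν : ∀ e t, At e t → ((pull (fun t => j (i t)) θ₀ + pull (fun t => j (i t)) θ₁ :
      D.FormM d F) e (e t)).rank ≤ ν)
    (hν' : ∃ t, ν ≤ ((pull (fun t => j (i t)) θ₀ + pull (fun t => j (i t)) θ₁ :
      D.FormM d F) (chartAt (Cm d) t) (chartAt (Cm d) t t)).rank)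
    (hV₀ : ∀ t : F, ∃ (r : ℕ) (g : Fin r → X → ℂ) (a : Fin r → ℕ),
      VolLoc n m (fun (D : Set X) z g => J.IsLocalEq (Cm n) D g z) k W₀ 0 θ₀ (j (i t)) g a ∧
      (∀ l, J.dif (Cm d) (fun t => g l (j (i t))) t ≠ 0) ∧
      ∀ᶠ s in 𝓝 t, ∀ l, g l (j (i s)) = 0 →
        ConAt d (fun t => g l (j (i t))) β
          (pull (fun t => j (i t)) θ₀ + pull (fun t => j (i t)) θ₁) s ∨
        SmallAt d ν (fun t => g l (j (i t)))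
          (pull (fun t => j (i t)) θ₀ + pull (fun t => j (i t)) θ₁) s)
    (hV₁ : ∀ t : F, ∃ (r : ℕ) (g : Fin r → X → ℂ) (a : Fin r → ℕ),
      VolLoc n m' (fun (D : Set X) z g => J.IsLocalEq (Cm n) D g z) k' W₁ 0 θ₁ (j (i t)) g a ∧
      (∀ l, J.dif (Cm d) (fun t => g l (j (i t))) t ≠ 0) ∧
      ∀ᶠ s in 𝓝 t, ∀ l, g l (j (i s)) = 0 →
        ConAt d (fun t => g l (j (i t))) β
          (pull (fun t => j (i t)) θ₀ + pull (fun t => j (i t)) θ₁) s ∨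
        SmallAt d ν (fun t => g l (j (i t)))
          (pull (fun t => j (i t)) θ₀ + pull (fun t => j (i t)) θ₁) s) :
    J.kod (Cm d) (fun (D : Set X) t g => ∃ e, J.IsLocalEq (Cm n) D e (j (i t)) ∧
      ∀ᶠ t' in 𝓝 t, g t' = e (j (i t'))) Δ ≤ ((ν : ℕ∞) : WithBot ℕ∞) := by
  obtain ⟨RF, hRo, hRne, hR⟩ := fib_flat hgr hnpd hχ hΔ hΔ₀ ht hm hm' hk hk' hθ₀ hθ₁ hj hf hi hne
    hβ hd hν hν' hV₀ hV₁
  set T : Finset (Set X) := hΔ.1.toFinset with hTdef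
  have hTΔ : ∀ D, D ∈ T ↔ Δ D ≠ 0 := fun D => Set.Finite.mem_toFinset _
  have hTex : ∀ D ∈ T, ∀ x, ∃ g, J.IsLocalEq (Cm n) D g x := fun D hD =>
    (hΔ.2.1 D ((hTΔ D).1 hD)).2.1
  have hι : ContMDiff 𝓘(ℂ, Cm d) 𝓘(ℂ, Cm n) ω (fun t => j (i t)) := fun t =>
    ContMDiffAt.comp t (hj.1 (i t)) (hi.hol t)
  have hsF : IsSys d (H776.KD.eqF n (fun t => j (i t))) T :=
    H776.KD.isSys_eqF hι hTex fun D hD => hne D ((hTΔ D).1 hD)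
  refine kod_le_of_flat (eqn := H776.KD.eqF n (fun t => j (i t))) hsF
    (fun D hD => (hTΔ D).2 hD) (fun x hx => ?_) (fun D hD => (hTΔ D).1 hD) hRo hRne
    (fun x hx => (hR x hx).2.2.1.le) fun x hx => (hR x hx).2.2.2
  refine (H776.KD.off_eqF hι hTex).2 fun D hD hmem => ?_
  obtain ⟨g, ⟨e', he', hev'⟩, hg⟩ := hx D hD
  rw [hev'.self_of_nhds] at hg
  exact hg ((mem_iffE he').1 hmem)

theorem kodF_le1 (hgr : GrowthPartM) {n p d : ℕ} (hnpd : n = p + d) {X Z Y F : Type}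
    [TopologicalSpace X] [T2Space X] [CompactSpace X] [ConnectedSpace X]
    [ChartedSpace (Cm n) X] [IsManifold 𝓘(ℂ, Cm n) ω X]
    [TopologicalSpace Z] [ChartedSpace (Cm n) Z] [IsManifold 𝓘(ℂ, Cm n) ω Z]
    [TopologicalSpace Y] [T2Space Y] [ConnectedSpace Y]
    [ChartedSpace (Cm p) Y] [IsManifold 𝓘(ℂ, Cm p) ω Y]
    [TopologicalSpace F] [T2Space F] [CompactSpace F] [ConnectedSpace F]
    [ChartedSpace (Cm d) F] [IsManifold 𝓘(ℂ, Cm d) ω F]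
    {χ : D.FormM n X} (hχ : IsKahler χ) {Δ : Set X → ℝ} (hΔ : J.IsSNC (Cm n) Δ)
    {m : ℕ} (hm : 0 < m) {k : Set X → ℕ} (hk : ∀ D, (k D : ℝ) = m * Δ D)
    {θ : D.FormM n X} (hθ : IsSemiPos θ) {W : X → ℝ}
    {j : Z → X} (hj : J.IsBigOpen (Cm n) j) {f : Z → Y} (hf : ContMDiff 𝓘(ℂ, Cm n) 𝓘(ℂ, Cm p) ω f)
    {i : F → Z} (hi : IsSmoothFibre (Cm n) (Cm p) (Cm d) f i)
    (hne : ∀ D, Δ D ≠ 0 → ∃ t, j (i t) ∉ D) {β : D.FormM d F} (hβ : IsSemiPos β)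
    (hd : Dense {t | (β (chartAt (Cm d) t) (chartAt (Cm d) t t)).PosDef}) {ν : ℕ}
    (hν : ∀ e t, At e t → ((pull (fun t => j (i t)) θ : D.FormM d F) e (e t)).rank ≤ ν)
    (hν' : ∃ t, ν ≤ ((pull (fun t => j (i t)) θ : D.FormM d F) (chartAt (Cm d) t)
      (chartAt (Cm d) t t)).rank)
    (hV : ∀ t : F, ∃ (r : ℕ) (g : Fin r → X → ℂ) (a : Fin r → ℕ),
      VolLoc n m (fun (D : Set X) z g => J.IsLocalEq (Cm n) D g z) k W 0 θ (j (i t)) g a ∧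
      (∀ l, J.dif (Cm d) (fun t => g l (j (i t))) t ≠ 0) ∧
      ∀ᶠ s in 𝓝 t, ∀ l, g l (j (i s)) = 0 →
        ConAt d (fun t => g l (j (i t))) β (pull (fun t => j (i t)) θ) s ∨
        SmallAt d ν (fun t => g l (j (i t))) (pull (fun t => j (i t)) θ) s) :
    J.kod (Cm d) (fun (D : Set X) t g => ∃ e, J.IsLocalEq (Cm n) D e (j (i t)) ∧
      ∀ᶠ t' in 𝓝 t, g t' = e (j (i t'))) Δ ≤ ((ν : ℕ∞) : WithBot ℕ∞) := by
  obtain ⟨RF, hRo, hRne, hR⟩ := fib_flat1 hgr hnpd hχ hΔ hm hk hθ hj hf hi hne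
    hβ hd hν hν' hV
  set T : Finset (Set X) := hΔ.1.toFinset with hTdef
  have hTΔ : ∀ D, D ∈ T ↔ Δ D ≠ 0 := fun D => Set.Finite.mem_toFinset _
  have hTex : ∀ D ∈ T, ∀ x, ∃ g, J.IsLocalEq (Cm n) D g x := fun D hD =>
    (hΔ.2.1 D ((hTΔ D).1 hD)).2.1
  have hι : ContMDiff 𝓘(ℂ, Cm d) 𝓘(ℂ, Cm n) ω (fun t => j (i t)) := fun t =>
    ContMDiffAt.comp t (hj.1 (i t)) (hi.hol t)
  have hsF : IsSys d (H776.KD.eqF n (fun t => j (i t))) T :=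
    H776.KD.isSys_eqF hι hTex fun D hD => hne D ((hTΔ D).1 hD)
  refine kod_le_of_flat (eqn := H776.KD.eqF n (fun t => j (i t))) hsF
    (fun D hD => (hTΔ D).2 hD) (fun x hx => ?_) (fun D hD => (hTΔ D).1 hD) hRo hRne
    (fun x hx => (hR x hx).2.2.1.le) fun x hx => (hR x hx).2.2.2
  refine (H776.KD.off_eqF hι hTex).2 fun D hD hmem => ?_
  obtain ⟨g, ⟨e', he', hev'⟩, hg⟩ := hx D hD
  rw [hev'.self_of_nhds] at hg
  exact hg ((mem_iffE he').1 hmem)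

end Vale.Agent.P281.H575.U
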