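import Vale.Agent.P281.H575.U.Core

/-! P281, theorem U, row U-F: assembly on the fibre. -/

open scoped Manifold ContDiff Topology ComplexOrder Matrix
open Set Filter Vale.Agent.P281 Vale.Agent.P281.MF Vale.Agent.P272.K Vale.Agent.P299
open Vale.Agent.P285.TM Vale.Agent.P285.H591.TM
open Vale.Agent.P281.H949.SA Vale.Agent.P281.H716 Vale.Agent.P281.H716.IsSys
open Vale.Agent.P272.K.AMP (hess)
open Vale.Agent.P272.K.INT (IsClosedForm)
open Vale.Agent.P281.H342.KD Vale.Agent.P281.H342.KG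
open Vale.Agent.P281.H713 Vale.Agent.P281.H713.SA
open Vale.Agent.P281.H776.KD (isClosedForm_pullM psd_pull adjF mem_iffE)
open Vale.Agent.P281.H368.MFS

set_option linter.all false

noncomputable section

namespace Vale.Agent.P281.H575.U

open Vale.Agent.P281.H167.GM (mixX addF isClosed_addF psd_real_smul)
open Vale.Agent.P281.H575.MFS

section pull

variable {n d : ℕ} {X F : Type} [TopologicalSpace X] [ChartedSpace (Cm n) X]
  [TopologicalSpace F] [ChartedSpace (Cm d) F] {ι : F → X}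

theorem pull_add (θ₀ θ₁ : D.FormM n X) :
    (pull ι (θ₀ + θ₁) : D.FormM d F) = (pull ι θ₀ : D.FormM d F) + (pull ι θ₁ : D.FormM d F) := by
  funext e z
  show _ = (pull ι θ₀ : D.FormM d F) e z + (pull ι θ₁ : D.FormM d F) e z
  unfold H368.MFS.pull
  rw [← Matrix.add_mul, ← Matrix.mul_add]
  rfl

theorem pull_zero : (pull ι (0 : D.FormM n X) : D.FormM d F) = 0 := by
  funext e z
  show _ = (0 : Matrix (Fin d) (Fin d) ℂ)
  unfold H368.MFS.pull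
  have h1 : (0 : D.FormM n X) (chartAt (Cm n) (ι (e.symm z)))
    (chartAt (Cm n) (ι (e.symm z)) (ι (e.symm z))) = 0 := rfl
  rw [h1, Matrix.mul_zero, Matrix.zero_mul]

end pull


section fib

/-- the quotients of sections on the fibre -/
theorem fib_flat (hgr : GrowthPartM) {n p d : ℕ} (hnpd : n = p + d) {X Z Y F : Type}
    [TopologicalSpace X] [T2Space X] [CompactSpace X] [ConnectedSpace X]
    [ChartedSpace (Cm n) X] [IsManifold 𝓘(ℂ, Cm n) ω X]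
    [TopologicalSpace Z] [ChartedSpace (Cm n) Z] [IsManifold 𝓘(ℂ, Cm n) ω Z]
    [TopologicalSpace Y] [T2Space Y] [ConnectedSpace Y]
    [ChartedSpace (Cm p) Y] [IsManifold 𝓘(ℂ, Cm p) ω Y]
    [TopologicalSpace F] [T2Space F] [CompactSpace F] [ConnectedSpace F]
    [ChartedSpace (Cm d) F] [IsManifold 𝓘(ℂ, Cm d) ω F]
    {χ : D.FormM n X} (hχ : IsKahler χ) {Δ Δ₀ : Set X → ℝ} (hΔ : J.IsSNC (Cm n) Δ)
    (hΔ₀ : ∀ D, Δ₀ D ≠ 0 → Δ D ≠ 0) {t : ℝ} (ht : 0 < t)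
    {m m' : ℕ} (hm : 0 < m) (hm' : 0 < m') {k k' : Set X → ℕ}
    (hk : ∀ D, (k D : ℝ) = m * Δ₀ D) (hk' : ∀ D, (k' D : ℝ) = m' * (Δ₀ D + t * (Δ D - Δ₀ D)))
    {θ₀ θ₁ : D.FormM n X} (hθ₀ : IsSemiPos θ₀) (hθ₁ : IsSemiPos θ₁) {W₀ W₁ : X → ℝ}
    {j : Z → X} (hj : J.IsBigOpen (Cm n) j) {f : Z → Y} (hf : ContMDiff 𝓘(ℂ, Cm n) 𝓘(ℂ, Cm p) ω f)
    {i : F → Z} (hi : IsSmoothFibre (Cm n) (Cm p) (Cm d) f i)
    (hne : ∀ D, Δ D ≠ 0 → ∃ t, j (i t) ∉ D) {β : D.FormM d F} (hβ : IsSemiPos β)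
    (hd : Dense {t | (β (chartAt (Cm d) t) (chartAt (Cm d) t t)).PosDef}) {ν : ℕ}
    (hν : ∀ e t, At e t → ((pull (fun t => j (i t)) θ₀ + pull (fun t => j (i t)) θ₁ :
      D.FormM d F) e (e t)).rank ≤ ν)
    (hν' : ∃ t, ν ≤ ((pull (fun t => j (i t)) θ₀ + pull (fun t => j (i t)) θ₁ :
      D.FormM d F) (chartAt (Cm d) t) (chartAt (Cm d) t t)).rank)
    (hV₀ : ∀ t : F, ∃ (r : ℕ) (g : Fin r → X → ℂ) (a : Fin r → ℕ),
      VolLoc n m (fun (D : Set X) z g => J.IsLocalEq (Cm n) D g z) k W₀ 0 θ₀ (j (i t)) g a ∧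
      (∀ l, J.dif (Cm d) (fun t => g l (j (i t))) t ≠ 0) ∧
      ∀ᶠ s in 𝓝 t, ∀ l, g l (j (i s)) = 0 →
        ConAt d (fun t => g l (j (i t))) β
          (pull (fun t => j (i t)) θ₀ + pull (fun t => j (i t)) θ₁) s ∨
        SmallAt d ν (fun t => g l (j (i t)))
          (pull (fun t => j (i t)) θ₀ + pull (fun t => j (i t)) θ₁) s)
    (hV₁ : ∀ t : F, ∃ (r : ℕ) (g : Fin r → X → ℂ) (a : Fin r → ℕ),
      VolLoc n m' (fun (D : Set X) z g => J.IsLocalEq (Cm n) D g z) k' W₁ 0 θ₁ (j (i t)) g a ∧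
      (∀ l, J.dif (Cm d) (fun t => g l (j (i t))) t ≠ 0) ∧
      ∀ᶠ s in 𝓝 t, ∀ l, g l (j (i s)) = 0 →
        ConAt d (fun t => g l (j (i t))) β
          (pull (fun t => j (i t)) θ₀ + pull (fun t => j (i t)) θ₁) s ∨
        SmallAt d ν (fun t => g l (j (i t)))
          (pull (fun t => j (i t)) θ₀ + pull (fun t => j (i t)) θ₁) s) :
    ∃ RF : Set F, IsOpen RF ∧ RF.Nonempty ∧ ∀ x ∈ RF,
      (∀ D, Δ D ≠ 0 → j (i x) ∉ D) ∧
      (β (chartAt (Cm d) x) (chartAt (Cm d) x x)).PosDef ∧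
      ((pull (fun t => j (i t)) θ₀ + pull (fun t => j (i t)) θ₁ :
        D.FormM d F) (chartAt (Cm d) x) (chartAt (Cm d) x x)).rank = ν ∧
      ∀ (m₁ : ℕ) (_ : 0 < m₁) (k₁ : Set X → ℕ) (_ : ∀ D, (k₁ D : ℝ) = m₁ * Δ D) (s₀ s₁ : F → ℂ),
      J.IsSection (Cm d) (H776.KD.eqF n (fun t => j (i t))) m₁ k₁ s₀ →
      J.IsSection (Cm d) (H776.KD.eqF n (fun t => j (i t))) m₁ k₁ s₁ → s₀ x ≠ 0 →
      ∀ v : Cm d, InKer ((pull (fun t => j (i t)) θ₀ + pull (fun t => j (i t)) θ₁ :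
        D.FormM d F) (chartAt (Cm d) x) (chartAt (Cm d) x x)) v →
      dV (Cm d) (fun w => s₁ w / s₀ w) x v = 0 := by
  classical
  set T : Finset (Set X) := hΔ.1.toFinset with hTdef
  have hTΔ : ∀ D, D ∈ T ↔ Δ D ≠ 0 := fun D => Set.Finite.mem_toFinset _
  have hTex : ∀ D ∈ T, ∀ x, ∃ g, J.IsLocalEq (Cm n) D g x := fun D hD =>
    (hΔ.2.1 D ((hTΔ D).1 hD)).2.1
  have hjh : ∀ z, HolM (Cm n) (Cm n) j z := fun z => hj.1 z
  have hfh : ∀ z, HolM (Cm n) (Cm p) f z := fun z => hf z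
  have hih : ∀ z, HolM (Cm d) (Cm n) i z := fun z => hi.hol z
  have hι : ContMDiff 𝓘(ℂ, Cm d) 𝓘(ℂ, Cm n) ω (fun t => j (i t)) := fun t =>
    ContMDiffAt.comp t (hjh (i t)) (hih t)
  have hsF : IsSys d (H776.KD.eqF n (fun t => j (i t))) T :=
    H776.KD.isSys_eqF hι hTex fun D hD => hne D ((hTΔ D).1 hD)
  have hjd : ∀ z, (dM (Cm n) (Cm n) j z).det ≠ 0 := fun z => det_ne_of_inj' (hj.2.2.1 z)
  obtain ⟨G, hG0, hG⟩ := H776.KD.adjF (n := n) (p := p) (d := d) hnpd hjh hjd hfh hi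
  have himm : ∀ t, Function.Injective (mfderiv 𝓘(ℂ, Cm d) 𝓘(ℂ, Cm n) (fun t => j (i t)) t) := by
    intro t
    have h1 : mfderiv 𝓘(ℂ, Cm d) 𝓘(ℂ, Cm n) (fun t => j (i t)) t =
        (mfderiv 𝓘(ℂ, Cm n) 𝓘(ℂ, Cm n) j (i t)).comp (mfderiv 𝓘(ℂ, Cm d) 𝓘(ℂ, Cm n) i t) :=
      mfderiv_comp t ((hjh (i t)).mdifferentiableAt (by simp))
        ((hih t).mdifferentiableAt (by simp))
    rw [h1]
    exact (hj.2.2.1 (i t)).comp (hi.immersive t)
  obtain ⟨χF, hχF⟩ := H167.SA.pullPart n d X F (fun t => j (i t)) hι himm χ hχ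
  have h0F : IsSemiPos (pull (fun t => j (i t)) θ₀ : D.FormM d F) := isSemiPos_pull hι hθ₀
  have h1F : IsSemiPos (pull (fun t => j (i t)) θ₁ : D.FormM d F) := isSemiPos_pull hι hθ₁
  set τ₀ : D.FormM d F := pull (fun t => j (i t)) θ₀ with hτ₀
  set τ₁ : D.FormM d F := pull (fun t => j (i t)) θ₁ with hτ₁
  have hτ : IsSemiPos (τ₀ + τ₁) := by
    have h1 := h0F.isClosedForm.add h1F.isClosedForm
    exact
      { smooth := h1.smooth
        posSemidef := fun e x hx => (h0F.posSemidef e x hx).add (h1F.posSemidef e x hx)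
        change := h1.form
        closed := fun e x hx i j k => h1.closed e x hx k i j }
  have hconv : ∀ (m : ℕ) (k : Set X → ℕ) (W : X → ℝ) (θ : D.FormM n X),
      (∀ t : F, ∃ (r : ℕ) (g : Fin r → X → ℂ) (a : Fin r → ℕ),
        VolLoc n m (fun (D : Set X) z g => J.IsLocalEq (Cm n) D g z) k W 0 θ (j (i t)) g a ∧
        (∀ l, J.dif (Cm d) (fun t => g l (j (i t))) t ≠ 0) ∧
        ∀ᶠ s in 𝓝 t, ∀ l, g l (j (i s)) = 0 →
          ConAt d (fun t => g l (j (i t))) β (τ₀ + τ₁) s ∨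
          SmallAt d ν (fun t => g l (j (i t))) (τ₀ + τ₁) s) →
      ∀ t : F, ∃ (r : ℕ) (g : Fin r → F → ℂ) (a : Fin r → ℕ),
        VolLoc d m (H776.KD.eqF n (fun t => j (i t))) k (fun t => W (j (i t)) * ‖G t ^ m‖ ^ 2)
          0 (pull (fun t => j (i t)) θ) t g a ∧
        ∀ᶠ z in 𝓝 t, ∀ l, g l z = 0 → ConAt d (g l) β (τ₀ + τ₁) z ∨
          SmallAt d ν (g l) (τ₀ + τ₁) z := by
    intro m k W θ hV t
    obtain ⟨r, g, a, h1, h2, h3⟩ := hV t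
    have h4 := volLoc_fib hι hG h1 h2
    rw [pull_zero] at h4
    exact ⟨r, fun l t => g l (j (i t)), a, h4, h3⟩
  have hat : ∀ x : F, At (chartAt (Cm d) x) x := fun x =>
    ⟨chart_mem_atlas _ _, mem_chart_source _ _⟩
  have hposc : ∀ (e e' : Chart d F) (x : F), At e x → At e' x → (β e' (e' x)).PosDef →
      (β e (e x)).PosDef := by
    intro e e' x h h' hP
    refine (hβ.posSemidef e x h).posDef_iff_isUnit.2 ?_
    rw [Matrix.isUnit_iff_isUnit_det, isUnit_iff_ne_zero, hβ.change e e' x h h', Matrix.det_mul,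
      Matrix.det_mul, Matrix.det_transpose]
    have h1 : (jacM e e' x).det ≠ 0 := jacM_det_ne_zero h h'
    have h2 : ((jacM e e' x).map (starRingEnd ℂ)).det = (starRingEnd ℂ) (jacM e e' x).det := by
      rw [RingHom.map_det]
      rfl
    rw [h2]
    have h3 : (starRingEnd ℂ) (jacM e e' x).det ≠ 0 := by simpa using h1
    exact mul_ne_zero (mul_ne_zero h1 hP.det_pos.ne') h3
  have hrkc : ∀ (e e' : Chart d F) (x : F), At e x → At e' x →
      ((τ₀ + τ₁) e (e x)).rank = ((τ₀ + τ₁) e' (e' x)).rank := by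
    intro e e' x h h'
    have h1 : (jacM e e' x).det ≠ 0 := jacM_det_ne_zero h h'
    have h2 : ((jacM e e' x).map (starRingEnd ℂ)).det = (starRingEnd ℂ) (jacM e e' x).det := by
      rw [RingHom.map_det]
      rfl
    have h3 : IsUnit ((jacM e e' x).map (starRingEnd ℂ)).det := by
      rw [h2, isUnit_iff_ne_zero]
      simpa using h1
    have h4 : IsUnit (jacM e e' x).transpose.det := by
      rw [Matrix.det_transpose, isUnit_iff_ne_zero]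
      exact h1
    rw [hτ.change e e' x h h', Matrix.rank_mul_eq_left_of_isUnit_det _ _ h3,
      Matrix.rank_mul_eq_right_of_isUnit_det _ _ h4]
  have ho₁ : IsOpen {x : F | ∀ D, Δ D ≠ 0 → j (i x) ∉ D} := by
    have h1 : {x : F | ∀ D, Δ D ≠ 0 → j (i x) ∉ D} =
        off (H776.KD.eqF n (fun t => j (i t))) T := by
      ext x
      rw [H776.KD.off_eqF hι hTex]
      exact ⟨fun h D hD => h D ((hTΔ D).1 hD), fun h D hD => h D ((hTΔ D).2 hD)⟩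
    rw [h1]
    exact hsF.isOpen_off
  have hd₁ : Dense {x : F | ∀ D, Δ D ≠ 0 → j (i x) ∉ D} := by
    have h1 : {x : F | ∀ D, Δ D ≠ 0 → j (i x) ∉ D} =
        off (H776.KD.eqF n (fun t => j (i t))) T := by
      ext x
      rw [H776.KD.off_eqF hι hTex]
      exact ⟨fun h D hD => h D ((hTΔ D).1 hD), fun h D hD => h D ((hTΔ D).2 hD)⟩
    rw [h1]
    exact hsF.dense_off
  have ho₂ : IsOpen {x : F | (β (chartAt (Cm d) x) (chartAt (Cm d) x x)).PosDef} := by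
    rw [isOpen_iff_mem_nhds]
    intro x hP
    filter_upwards [H167.GM.ev_posDef hβ.isClosedForm hβ.posSemidef (hat x) hP] with y hy
    exact hposc _ _ y (hat y) hy.1 hy.2
  have hrk_ev : ∀ x : F, ν ≤ ((τ₀ + τ₁) (chartAt (Cm d) x) (chartAt (Cm d) x x)).rank →
      ∀ᶠ y in 𝓝 x, ((τ₀ + τ₁) (chartAt (Cm d) y) (chartAt (Cm d) y y)).rank = ν := by
    intro x hx
    filter_upwards [Vale.Agent.P281.H713.SB.rank_lsc hτ.isClosedForm (hat x) hx,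
      (chartAt (Cm d) x).open_source.mem_nhds (hat x).2] with y hy hys
    have hAt : At (chartAt (Cm d) x) y := ⟨chart_mem_atlas _ _, hys⟩
    refine le_antisymm (hν _ y (hat y)) ?_
    rw [hrkc _ _ y (hat y) hAt]
    exact hy
  have ho₃ : IsOpen {x : F | ((τ₀ + τ₁) (chartAt (Cm d) x) (chartAt (Cm d) x x)).rank = ν} := by
    rw [isOpen_iff_mem_nhds]
    intro x hx
    exact hrk_ev x hx.ge
  refine ⟨{x | (∀ D, Δ D ≠ 0 → j (i x) ∉ D)} ∩
      ({x | (β (chartAt (Cm d) x) (chartAt (Cm d) x x)).PosDef} ∩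
      {x | ((τ₀ + τ₁) (chartAt (Cm d) x) (chartAt (Cm d) x x)).rank = ν}),
      ho₁.inter (ho₂.inter ho₃), ?_, ?_⟩
  · obtain ⟨x, hx⟩ := hν'
    have h1 : ({x : F | ((τ₀ + τ₁) (chartAt (Cm d) x) (chartAt (Cm d) x x)).rank = ν}).Nonempty :=
      ⟨x, (hrk_ev x hx).self_of_nhds⟩
    obtain ⟨y, hy⟩ := hd.inter_open_nonempty _ ho₃ h1
    exact hd₁.inter_open_nonempty _ (ho₂.inter ho₃) ⟨y, hy.2, hy.1⟩ |>.imp fun z hz => ⟨hz.2, hz.1⟩
  · rintro x ⟨hx1, hx2, hx3⟩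
    refine ⟨hx1, hx2, hx3, fun m₁ hm₁ k₁ hk₁ s₀ s₁ hs₀ hs₁ h0 v hv => ?_⟩
    refine dV_zero hgr hχF hsF (fun D hD => (hTΔ D).2 hD) (fun D hD => (hTΔ D).2 (hΔ₀ D hD)) ht
      hm hm' hk hk' hβ h0F h1F hτ hν (hconv m k W₀ θ₀ hV₀) (hconv m' k' W₁ θ₁ hV₁) hm₁ hk₁ hs₀ hs₁
      ((H776.KD.off_eqF hι hTex).2 fun D hD => hx1 D ((hTΔ D).1 hD)) h0 hx2 hx3 ?_
    intro l
    rw [H368.GM.De_self]
    exact hv l

end fib

end Vale.Agent.P281.H575.U
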