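import Vale.Agent.P281.H575.U.Fib

/-! P281, theorem U, the fibre side with one volume form (`K_X + Δ ≡ θ + N`). -/

open scoped Manifold ContDiff Topology ComplexOrder Matrix
open Set Filter Vale.Agent.P281 Vale.Agent.P281.MF Vale.Agent.P272.K Vale.Agent.P299
open Vale.Agent.P281.H949.SA Vale.Agent.P281.H716 Vale.Agent.P281.H716.IsSys
open Vale.Agent.P281.H713 Vale.Agent.P281.H713.SA
open Vale.Agent.P281.H368.MFS

set_option linter.all false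

noncomputable section

namespace Vale.Agent.P281.H575.U

theorem rank_double {d : ℕ} (A : Matrix (Fin d) (Fin d) ℂ) : (A + A).rank = A.rank := by
  have h1 : A + A = ((2 : ℂ) • (1 : Matrix (Fin d) (Fin d) ℂ)) * A := by
    rw [Matrix.smul_mul, Matrix.one_mul, two_smul]
  rw [h1]
  refine Matrix.rank_mul_eq_right_of_isUnit_det _ _ ?_
  rw [Matrix.det_smul, Matrix.det_one, mul_one, isUnit_iff_ne_zero]
  exact pow_ne_zero _ two_ne_zero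

theorem inKer_double {d : ℕ} {A : Matrix (Fin d) (Fin d) ℂ} {w : Cm d} :
    InKer (A + A) w ↔ InKer A w := by
  have h1 : ∀ j, ∑ i, w i * (A + A) i j = 2 * ∑ i, w i * A i j := by
    intro j
    rw [Finset.mul_sum]
    refine Finset.sum_congr rfl fun i _ => ?_
    rw [Matrix.add_apply]
    ring
  constructor
  · intro h j
    have h2 := h j
    rw [h1 j] at h2
    exact (mul_eq_zero.1 h2).resolve_left two_ne_zero
  · intro h j
    rw [h1 j, h j, mul_zero]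

theorem fib_flat1 (hgr : GrowthPartM) {n p d : ℕ} (hnpd : n = p + d) {X Z Y F : Type}
    [TopologicalSpace X] [T2Space X] [CompactSpace X] [ConnectedSpace X]
    [ChartedSpace (Cm n) X] [IsManifold 𝓘(ℂ, Cm n) ω X]
    [TopologicalSpace Z] [ChartedSpace (Cm n) Z] [IsManifold 𝓘(ℂ, Cm n) ω Z]
    [TopologicalSpace Y] [T2Space Y] [ConnectedSpace Y]
    [ChartedSpace (Cm p) Y] [IsManifold 𝓘(ℂ, Cm p) ω Y]
    [TopologicalSpace F] [T2Space F] [CompactSpace F] [ConnectedSpace F]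
    [ChartedSpace (Cm d) F] [IsManifold 𝓘(ℂ, Cm d) ω F]
    {χ : D.FormM n X} (hχ : IsKahler χ) {Δ : Set X → ℝ} (hΔ : J.IsSNC (Cm n) Δ)
    {m : ℕ} (hm : 0 < m) {k : Set X → ℕ} (hk : ∀ D, (k D : ℝ) = m * Δ D)
    {θ : D.FormM n X} (hθ : IsSemiPos θ) {W : X → ℝ}
    {j : Z → X} (hj : J.IsBigOpen (Cm n) j) {f : Z → Y} (hf : ContMDiff 𝓘(ℂ, Cm n) 𝓘(ℂ, Cm p) ω f)
    {i : F → Z} (hi : IsSmoothFibre (Cm n) (Cm p) (Cm d) f i)
    (hne : ∀ D, Δ D ≠ 0 → ∃ t, j (i t) ∉ D) {β : D.FormM d F} (hβ : IsSemiPos β)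
    (hd : Dense {t | (β (chartAt (Cm d) t) (chartAt (Cm d) t t)).PosDef}) {ν : ℕ}
    (hν : ∀ e t, At e t → ((pull (fun t => j (i t)) θ : D.FormM d F) e (e t)).rank ≤ ν)
    (hν' : ∃ t, ν ≤ ((pull (fun t => j (i t)) θ : D.FormM d F) (chartAt (Cm d) t)
      (chartAt (Cm d) t t)).rank)
    (hV : ∀ t : F, ∃ (r : ℕ) (g : Fin r → X → ℂ) (a : Fin r → ℕ),
      VolLoc n m (fun (D : Set X) z g => J.IsLocalEq (Cm n) D g z) k W 0 θ (j (i t)) g a ∧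
      (∀ l, J.dif (Cm d) (fun t => g l (j (i t))) t ≠ 0) ∧
      ∀ᶠ s in 𝓝 t, ∀ l, g l (j (i s)) = 0 →
        ConAt d (fun t => g l (j (i t))) β (pull (fun t => j (i t)) θ) s ∨
        SmallAt d ν (fun t => g l (j (i t))) (pull (fun t => j (i t)) θ) s) :
    ∃ RF : Set F, IsOpen RF ∧ RF.Nonempty ∧ ∀ x ∈ RF,
      (∀ D, Δ D ≠ 0 → j (i x) ∉ D) ∧
      (β (chartAt (Cm d) x) (chartAt (Cm d) x x)).PosDef ∧
      ((pull (fun t => j (i t)) θ : D.FormM d F) (chartAt (Cm d) x)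
        (chartAt (Cm d) x x)).rank = ν ∧
      ∀ (m₁ : ℕ) (_ : 0 < m₁) (k₁ : Set X → ℕ) (_ : ∀ D, (k₁ D : ℝ) = m₁ * Δ D) (s₀ s₁ : F → ℂ),
      J.IsSection (Cm d) (H776.KD.eqF n (fun t => j (i t))) m₁ k₁ s₀ →
      J.IsSection (Cm d) (H776.KD.eqF n (fun t => j (i t))) m₁ k₁ s₁ → s₀ x ≠ 0 →
      ∀ v : Cm d, InKer ((pull (fun t => j (i t)) θ : D.FormM d F) (chartAt (Cm d) x)
        (chartAt (Cm d) x x)) v → dV (Cm d) (fun w => s₁ w / s₀ w) x v = 0 := by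
  set τ : D.FormM d F := pull (fun t => j (i t)) θ with hτ
  have hV2 : ∀ t : F, ∃ (r : ℕ) (g : Fin r → X → ℂ) (a : Fin r → ℕ),
      VolLoc n m (fun (D : Set X) z g => J.IsLocalEq (Cm n) D g z) k W 0 θ (j (i t)) g a ∧
      (∀ l, J.dif (Cm d) (fun t => g l (j (i t))) t ≠ 0) ∧
      ∀ᶠ s in 𝓝 t, ∀ l, g l (j (i s)) = 0 →
        ConAt d (fun t => g l (j (i t))) β (τ + τ) s ∨
        SmallAt d ν (fun t => g l (j (i t))) (τ + τ) s := by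
    intro t
    obtain ⟨r, g, a, h1, h2, h3⟩ := hV t
    refine ⟨r, g, a, h1, h2, ?_⟩
    filter_upwards [h3] with s hs l hl
    rcases hs l hl with ⟨w, hw0, hw1, hw2, hw3⟩ | ⟨K, hK, hK'⟩
    · exact Or.inl ⟨w, hw0, hw1, hw2, inKer_double.2 hw3⟩
    · exact Or.inr ⟨K, hK, fun w hw => ⟨(hK' w hw).1, inKer_double.2 (hK' w hw).2⟩⟩
  obtain ⟨RF, h1, h2, h3⟩ := fib_flat hgr hnpd hχ hΔ (Δ₀ := Δ) (fun D hD => hD) one_pos hm hm hk
    (k' := k) (fun D => by rw [hk D, sub_self, mul_zero, add_zero]) hθ hθ hj hf hi hne hβ hd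
    (ν := ν) (fun e t ht => (rank_double _).trans_le (hν e t ht))
    (by
      obtain ⟨t, ht⟩ := hν'
      exact ⟨t, ht.trans (rank_double _).ge⟩) hV2 hV2
  refine ⟨RF, h1, h2, fun x hx => ?_⟩
  obtain ⟨h4, h5, h6, h7⟩ := h3 x hx
  exact ⟨h4, h5, (rank_double _).symm.trans h6, fun m₁ hm₁ k₁ hk₁ s₀ s₁ hs₀ hs₁ h0 v hv =>
    h7 m₁ hm₁ k₁ hk₁ s₀ s₁ hs₀ hs₁ h0 v (inKer_double.2 hv)⟩

end Vale.Agent.P281.H575.U
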